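import Crest.Agent.N325.Lst.ListR

/-!
# Row 325 (helper43): the edge event, definitions and programs

Bipartite form: classes and inner vertices, `mu c` is the inner mate of the class `c` (`none`:
a root), the entries `e ∈ adj a` with `ok a e` lead to the class `hd a e`.
-/

set_option autoImplicit false
open Finset

namespace Crest.Agent.N325.Dm

/-- the bipartite network by accessors -/
structure Bg where
  mu : ℕ → Option ℕ
  adj : ℕ → List ℕ
  ok : ℕ → ℕ → Bool
  hd : ℕ → ℕ → ℕ

namespace Bg

variable (G : Bg)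

/-- the class `c` is a neighbour of the inner vertex `a` -/
def Nb (a c : ℕ) : Prop := ∃ e ∈ G.adj a, G.ok a e = true ∧ G.hd a e = c

/-- one backward step: `c'` is a neighbour of the mate of `c` -/
def St (c c' : ℕ) : Prop := ∃ a, G.mu c = some a ∧ G.Nb a c'

/-- the mate, `0` for a root -/
def mt (c : ℕ) : ℕ := match G.mu c with
  | none => 0
  | some a => a

/-- the entries of the mate -/
def cadj (c : ℕ) : List ℕ := match G.mu c with
  | none => []
  | some a => G.adj a

/-- `c` is not a root -/
def has (c : ℕ) : Bool := match G.mu c with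
  | none => false
  | some _ => true

/-- volume of a set of inner vertices -/
def vol (A : Finset ℕ) : ℕ := ∑ a ∈ A, (1 + (G.adj a).length)

/-- volume of a list of classes -/
def cvol (L : List ℕ) : ℕ := (L.map fun c => 1 + (G.cadj c).length).sum

/-- `Cl` = the live classes -/
structure WF (Cl : ℕ → Prop) : Prop where
  inj : ∀ c c' a, Cl c → Cl c' → G.mu c = some a → G.mu c' = some a → c = c'
  nb : ∀ c a, Cl c → G.mu c = some a → G.Nb a c
  cl : ∀ c c', Cl c → G.St c c' → Cl c'

/-- every nonempty set of mates has more neighbours than elements -/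
def Surplus (Cl : ℕ → Prop) : Prop :=
  ∀ A C : Finset ℕ, A.Nonempty → (∀ a ∈ A, ∃ c, Cl c ∧ G.mu c = some a) →
    (∀ a ∈ A, ∀ c, G.Nb a c → c ∈ C) → #A < #C

/-- a closed region with the base class `d` -/
structure Closed (Cl : ℕ → Prop) (u u2 : ℕ) (A C : Finset ℕ) (d : ℕ) : Prop where
  hu : u ∈ C
  hu2 : u2 ∈ C
  cl : ∀ c ∈ C, Cl c
  nb : ∀ a ∈ A, ∀ c, G.Nb a c → c ∈ C
  card : #C = #A + 1
  hd : d ∈ C
  mu : ∀ c ∈ C, c ≠ d → ∃ a ∈ A, G.mu c = some a

/-- the arc `(parent, entry)` leads to `x` -/
def Arc (p : ℕ × ℕ) (x : ℕ) : Prop :=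
  ∃ a, G.mu p.1 = some a ∧ p.2 ∈ G.adj a ∧ G.ok a p.2 = true ∧ G.hd a p.2 = x

/-- every class of the list but the last one `s` has its parent later in the list -/
def Tree (s : ℕ) (par : ℕ → ℕ × ℕ) : List ℕ → Prop
  | [] => True
  | x :: l => ((x = s ∧ l = []) ∨ ((par x).1 ∈ l ∧ G.Arc (par x) x)) ∧ Tree s par l

/-- a backward path from `s` to `x`: the arcs `(class, entry)`, the last one first -/
inductive Pth (s : ℕ) : ℕ → List (ℕ × ℕ) → Prop
  | nil : Pth s s []
  | cons {x y e : ℕ} {l : List (ℕ × ℕ)} : Pth s x l → G.Arc (x, e) y → Pth s y ((x, e) :: l)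

end Bg

/-- a frame: class, entries to be scanned, time of the push -/
abbrev Fr : Type := ℕ × List ℕ × ℕ
/-- stack, visited classes (most recent first), marks, parents, time -/
abbrev Ds : Type := List Fr × List ℕ × Arr Bool × Arr (ℕ × ℕ) × ℕ

/-- one step of the depth first search -/
def step (G : Bg) (s : Ds) : Ds := match s.1 with
  | [] => s
  | f :: st => match f.2.1 with
    | [] => (st, s.2.1, s.2.2.1, s.2.2.2.1, s.2.2.2.2 + 1)
    | e :: r =>
      if G.ok (G.mt f.1) e = true ∧ s.2.2.1.get (G.hd (G.mt f.1) e) = false then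
        ((G.hd (G.mt f.1) e, G.cadj (G.hd (G.mt f.1) e), s.2.2.2.2 + 1) :: (f.1, r, f.2.2) :: st,
          G.hd (G.mt f.1) e :: s.2.1, s.2.2.1.set (G.hd (G.mt f.1) e) true,
          s.2.2.2.1.set (G.hd (G.mt f.1) e) (f.1, e), s.2.2.2.2 + 1)
      else ((f.1, r, f.2.2) :: st, s.2.1, s.2.2.1, s.2.2.2.1, s.2.2.2.2 + 1)

/-- the search goes on: time left, and the top of the stack is not a root -/
def cond (G : Bg) (ν : ℕ) (s : Ds) : Bool := match s.1 with
  | [] => false
  | f :: _ => if s.2.2.2.2 ≤ ν then G.has f.1 else false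

/-- **budgeted depth first search** from `s`; the classes marked in `v0` are not entered -/
def dfs (G : Bg) (v0 : Arr Bool) (s ν : ℕ) : R Ds :=
  whileF (cond G ν) (fun x => pure (step G x)) (ν + 2)
    ([(s, G.cadj s, 0)], [s], v0.set s true, Arr.cst (0, 0), 0)

/-- the top frame is young -/
def young (G : Bg) (T ν : ℕ) (st : List Fr) : Bool := match st with
  | [] => false
  | f :: _ => if T - f.2.2 ≤ ν then G.has f.1 else false

/-- drop the top -/
def pop (st : List Fr) : List Fr := match st with
  | [] => []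
  | _ :: l => l

/-- mark the parent along the stack: state = (class above, marks) -/
def ovStep (f : Fr) (s : ℕ × Arr ℕ) : ℕ × Arr ℕ := (f.1, s.2.set s.1 (f.1 + 1))

/-- the overlay of a stack: `ov c = p + 1` when `p` lies directly below `c` -/
def ovl (st : List Fr) : R (Arr ℕ) := match st with
  | [] => pure (Arr.cst 0)
  | f :: l => foldP ovStep l (f.1, Arr.cst 0) >>= fun s => pure s.2

/-- the mates flipped along the path that starts in `u` -/
def flip (G : Bg) (u : ℕ) (ov : Arr ℕ) : Bg :=
  { G with mu := fun c => if c = u then none else if ov.get c = 0 then G.mu c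
      else G.mu (ov.get c - 1) }

/-- the class of the list whose mate is not marked (the default is `d`) -/
def baseOf (G : Bg) (mk : Arr Bool) (L : List ℕ) (d : ℕ) : R ℕ :=
  foldP (fun c s => if G.has c = true ∧ mk.get (G.mt c) = true then s else c) L d

/-- the result of a search that closed: inner vertices, classes, base -/
def closeOut (G G' : Bg) (u : ℕ) (V : List ℕ) : R (Option (List ℕ × List ℕ × ℕ)) :=
  mapP G'.mt V >>= fun A => setAllP (fun _ => true) A (Arr.cst false) >>= fun mk =>
    baseOf G mk (u :: V) u >>= fun d => pure (some (A, u :: V, d))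

/-- **one test with the budget `ν`** -/
def test (G : Bg) (u u2 ν : ℕ) : R (Option (List ℕ × List ℕ × ℕ)) :=
  nat (2 * ν) >>= fun ν2 => dfs G (Arr.cst false) u ν2 >>= fun s =>
  whileF (young G s.2.2.2.2 ν) (fun st => pure (pop st)) (ν2 + 3) s.1 >>= fun st =>
  ovl st >>= fun ov =>
  dfs (flip G u ov) ((Arr.cst false).set u true) u2 ν >>= fun s' =>
  match s'.1 with
  | [] => closeOut G (flip G u ov) u s'.2.1
  | _ :: _ => pure none

/-- no result yet -/
def noRes (s : ℕ × Option (List ℕ × List ℕ × ℕ)) : Bool := match s.2 with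
  | none => true
  | some _ => false

/-- **the tests with the budgets `1, 2, …, 2^(k-1)`** until one closes -/
def dom (G : Bg) (u u2 k : ℕ) : R (Option (List ℕ × List ℕ × ℕ)) :=
  whileF noRes (fun s => test G u u2 s.1 >>= fun o => nat (2 * s.1) >>= fun ν => pure (ν, o)) k
    (1, none) >>= fun s => pure s.2

/-- follow one parent -/
def chStep (par : Arr (ℕ × ℕ)) (s : ℕ × List (ℕ × ℕ)) : ℕ × List (ℕ × ℕ) :=
  ((par.get s.1).1, par.get s.1 :: s.2)

/-- **the path of the search tree from `s` to `x`** -/
def chase (par : Arr (ℕ × ℕ)) (s x fu : ℕ) : R (List (ℕ × ℕ)) :=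
  whileF (fun t => decide (t.1 ≠ s)) (fun t => pure (chStep par t)) fu (x, []) >>= fun t =>
    revL t.2

/-- **the search from `u2` when `u` is a root**: visited classes, parents, and the outcome
(`0`: closed, `1`: the budget is spent, `r + 2`: the root `r` was found) -/
def bfs (G : Bg) (u u2 ν : ℕ) : R (List ℕ × Arr (ℕ × ℕ) × ℕ) :=
  dfs G ((Arr.cst false).set u true) u2 ν >>= fun s =>
  match s.1 with
  | [] => pure (s.2.1, s.2.2.2.1, 0)
  | f :: _ => pure (s.2.1, s.2.2.2.1, if G.has f.1 = true then 1 else f.1 + 2)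

end Crest.Agent.N325.Dm
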