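import Crest.Agent.N325.Dm.Path

/-!
# Row 325 (helper43): the search from `u2` that avoids `u`, the tree path, closed regions by counting
-/

set_option autoImplicit false
open Finset

namespace Crest.Agent.N325.Dm

namespace Bg

variable {G : Bg} {Cl : ℕ → Prop} {u u2 d s : ℕ} {A C : Finset ℕ}

/-- a set of mates with one more neighbour is closed -/
theorem Closed.of_card (hG : G.WF Cl) (hu : u ∈ C) (hu2 : u2 ∈ C) (cl : ∀ c ∈ C, Cl c)
    (nb : ∀ a ∈ A, ∀ c, G.Nb a c → c ∈ C) (card : #C = #A + 1)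
    (m : ∀ a ∈ A, ∃ c, Cl c ∧ G.mu c = some a) : ∃ d, G.Closed Cl u u2 A C d := by
  classical
  have k : #(C.filter fun c => ∃ a ∈ A, G.mu c = some a) = #A := by
    refine card_bij (fun c _ => G.mt c) (fun c i => ?_) (fun c i c' j e => ?_) fun a i => ?_
    · obtain ⟨-, a, j, e⟩ := mem_filter.1 i; rwa [mt_eq e]
    · obtain ⟨i1, a, -, ea⟩ := mem_filter.1 i
      obtain ⟨j1, a', -, ea'⟩ := mem_filter.1 j
      exact hG.inj_mt (cl c i1) (cl c' j1) (has_iff.2 ⟨a, ea⟩) (has_iff.2 ⟨a', ea'⟩) e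
    · obtain ⟨c, j, e⟩ := m a i
      exact ⟨c, mem_filter.2 ⟨nb a i c (hG.nb c a j e), a, i, e⟩, mt_eq e⟩
  have k' := card_filter_add_card_filter_not (s := C) fun c => ∃ a ∈ A, G.mu c = some a
  obtain ⟨d, e⟩ := card_eq_one.1 (by omega : #(C.filter fun c => ¬∃ a ∈ A, G.mu c = some a) = 1)
  refine ⟨d, hu, hu2, cl, nb, card, (mem_filter.1 (e ▸ mem_singleton_self d :)).1, fun c i j => ?_⟩
  by_contra n
  exact j (mem_singleton.1 (e ▸ mem_filter.2 ⟨i, n⟩ :))

/-- a root of a closed region is its base -/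
theorem Closed.root (h : G.Closed Cl u u2 A C d) {r : ℕ} (i : r ∈ C) (e : G.mu r = none) :
    r = d := by
  by_contra n
  obtain ⟨a, -, k⟩ := h.mu r i n
  rw [e] at k; cases k

/-- the visited classes of a search that closed, with `u`, form a closed region with the base `u` -/
theorem closed_of_vis (hG : G.WF Cl) {V : List ℕ} (nd : V.Nodup) (cl : ∀ y ∈ V, Cl y) (cu : Cl u)
    (nu : u ∉ V) (h2 : u2 ∈ V) (hh : ∀ y ∈ V, G.has y = true)
    (st : ∀ y ∈ V, ∀ z, G.St y z → z = u ∨ z ∈ V) :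
    (V.map G.mt).Nodup ∧ G.Closed Cl u u2 (V.map G.mt).toFinset (u :: V).toFinset u := by
  have n : (V.map G.mt).Nodup := nd.map_on fun c a c' b e =>
    hG.inj_mt (cl c a) (cl c' b) (hh c a) (hh c' b) e
  refine ⟨n, by simp, by simp [h2], by simpa using ⟨cu, cl⟩, fun a i c k => ?_, ?_, by simp,
    fun c i j => ?_⟩
  · obtain ⟨y, j, rfl⟩ := List.mem_map.1 (List.mem_toFinset.1 i)
    simpa using st y j c ⟨_, mu_mt (hh y j), k⟩
  · rw [List.toFinset_card_of_nodup n, List.toFinset_card_of_nodup (List.nodup_cons.2 ⟨nu, nd⟩)]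
    simp
  · have i' : c ∈ V := by simpa [j] using i
    exact ⟨_, List.mem_toFinset.2 (List.mem_map_of_mem i'), mu_mt (hh c i')⟩

theorem Tree.suffix {p : ℕ → ℕ × ℕ} {l m : List ℕ} (h : G.Tree s p (l ++ m)) : G.Tree s p m := by
  induction l with
  | nil => exact h
  | cons x l ih => exact ih h.2

theorem Pth.mem {x : ℕ} {l : List (ℕ × ℕ)} (h : G.Pth s x l) : s ∈ x :: l.map Prod.fst := by
  induction h with
  | nil => simp
  | cons _ _ ih => exact List.mem_cons_of_mem _ ih

/-- the classes of a path, its end first -/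
theorem Pth.chain {x : ℕ} {l : List (ℕ × ℕ)} (h : G.Pth s x l) :
    (x :: l.map Prod.fst).IsChain (fun x y => G.St y x) ∧
      (x :: l.map Prod.fst).getLast? = some s := by
  induction h with
  | nil => simp
  | cons _ a ih => exact ⟨.cons_cons a.st ih.1, by rw [List.map_cons, List.getLast?_cons_cons, ih.2]⟩

end Bg

variable {G : Bg} {Cl : ℕ → Prop} {u u2 s ν : ℕ} {g : Gl}

/-- the visited classes (most recent first) of a search from `s` that avoids `u` -/
structure Vis (G : Bg) (Cl : ℕ → Prop) (u s : ℕ) (V : List ℕ) (par : Arr (ℕ × ℕ)) : Prop where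
  nd : V.Nodup
  cl : ∀ y ∈ V, Cl y
  nu : u ∉ V
  tree : G.Tree s par.get V
  sub : ∃ U, V = U ++ [s] ∧ G.Sub s U

theorem Vis.mem {V : List ℕ} {par : Arr (ℕ × ℕ)} (h : Vis G Cl u s V par) : s ∈ V := by
  obtain ⟨U, rfl, -⟩ := h.sub; simp

/-- the visited classes lie in every closed region with the base `u` -/
theorem Vis.sub_closed {V : List ℕ} {par : Arr (ℕ × ℕ)} (h : Vis G Cl u u2 V par) {A C : Finset ℕ}
    (k : G.Closed Cl u u2 A C u) : ∀ y ∈ V, y ∈ C ∧ y ≠ u := by
  have nu := h.nu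
  obtain ⟨U, rfl, sb⟩ := h.sub
  have n : u2 ≠ u := fun e => nu (by simp [e])
  intro y i
  rcases List.mem_append.1 i with i | i
  · exact k.sub sb k.hu2 n (fun j => nu (by simp [j])) y i
  · rw [List.mem_singleton.1 i]; exact ⟨k.hu2, n⟩

theorem Inv.vis' {x : Ds} (h : Inv G Cl ((Arr.cst false).set u true) s x) :
    Vis G Cl u s x.2.1 x.2.2.2.1 :=
  ⟨h.nd, h.cl, fun i => by simpa using h.dis u i, h.tree, let ⟨U, a, b, _⟩ := h.stk.all; ⟨U, a, b⟩⟩

theorem Inv.closed {x : Ds} (h : Inv G Cl ((Arr.cst false).set u true) s x) (e : x.1 = []) :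
    (∀ y ∈ x.2.1, G.has y = true) ∧ ∀ y ∈ x.2.1, ∀ z, G.St y z → z = u ∨ z ∈ x.2.1 := by
  refine ⟨fun y i => (h.has y i).resolve_right fun ⟨f, st, k, _⟩ => (by rw [e] at k; cases k),
    fun y i z k => ?_⟩
  rcases (h.vis z).1 (h.fin y i (by simp [e]) z k) with j | j
  · exact .inr j
  · rw [Arr.get_set] at j
    split_ifs at j with c
    · exact .inl c
    · cases j

/-- **the search from `u2` that avoids `u`**: it closes (`0`), spends the budget (`1`), or finds the
root `r` (`r + 2`) -/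
theorem sp_bfs (hG : G.WF Cl) (h2 : Cl u2) (n : u ≠ u2) :
    Sp g (bfs G u u2 ν) fun r t => Vis G Cl u u2 r.1 r.2.1 ∧ t ≤ ν + 2 ∧ r.1.length ≤ ν + 2 ∧
      (r.2.2 = 0 → (∀ y ∈ r.1, G.has y = true) ∧ (∀ y ∈ r.1, ∀ z, G.St y z → z = u ∨ z ∈ r.1) ∧
        G.cvol r.1 ≤ ν + 1) ∧
      (r.2.2 = 1 → (∀ y ∈ r.1, G.has y = true) ∧ ν < G.cvol r.1) ∧
      ∀ x, r.2.2 = x + 2 → x ∈ r.1 ∧ G.mu x = none ∧ ∀ y ∈ r.1, y ≠ x → G.has y = true := by
  refine (sp_dfs hG h2 (Arr.get_set_ne _ n.symm _)).bind fun x t ⟨h, a, b, c⟩ => ?_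
  have l := h.len
  obtain ⟨U, -, -, i, j⟩ := h.stk.all
  split
  · rename_i e
    obtain ⟨k1, k2⟩ := h.closed e
    have := j e
    exact ⟨h.vis', by omega, by dsimp only; omega, fun _ => ⟨k1, k2, by dsimp only; omega⟩,
      fun k => (by cases k), fun _ k => (by cases k)⟩
  · rename_i f st e
    have hh : ∀ y ∈ x.2.1, y ≠ f.1 → G.has y = true := fun y m k =>
      (h.has y m).resolve_right fun ⟨f', st', k1, k2⟩ => by
        rw [e] at k1; cases k1; exact k k2.symm
    by_cases hf : G.has f.1 = true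
    · rw [if_pos hf]
      have := c f st e hf
      exact ⟨h.vis', by omega, by dsimp only; omega, fun k => (by cases k), fun _ =>
        ⟨fun y m => by by_cases q : y = f.1; exacts [q ▸ hf, hh y m q], by dsimp only; omega⟩,
        fun _ k => (by cases k)⟩
    · rw [if_neg hf]
      refine ⟨h.vis', by omega, by dsimp only; omega, fun k => (by cases k), fun k => (by cases k),
        fun z k => ?_⟩
      obtain rfl : f.1 = z := by simpa using k
      exact ⟨h.stk.sublist.subset (by simp [e]), Bg.has_false.1 (by simpa using hf), hh⟩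

/-- **the tree path**: a simple backward path inside the visited list, from `s` to `x` -/
theorem sp_chase {V : List ℕ} {par : Arr (ℕ × ℕ)} (nd : V.Nodup) (h : G.Tree s par.get V) {x fu : ℕ}
    (hx : x ∈ V) (hf : V.length ≤ fu) :
    Sp g (chase par s x fu) fun l t => G.Pth s x l ∧ (x :: l.map Prod.fst).Sublist V ∧
      t ≤ 2 * l.length + 2 := by
  refine (sp_whileF (fun r t => t = r.2.length ∧ ∃ U W, V = U ++ r.1 :: W ∧
      (x :: r.2.reverse.map Prod.fst).Sublist (U ++ [r.1]) ∧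
      ∀ l, G.Pth s r.1 l → G.Pth s x (r.2.reverse ++ l)) (fun r => V.length - V.idxOf r.1 - 1)
      (fun r t a c => ?_) (t := 0) ⟨rfl, ?_⟩ ?_).bind ?_
  · obtain ⟨e, U, W, eV, sl, k⟩ := a
    have tr : G.Tree s par.get (r.1 :: W) := (eV ▸ h).suffix
    obtain ⟨i, j⟩ := tr.1.resolve_left fun i => by simp [i.1] at c
    obtain ⟨W1, W2, rfl⟩ := List.append_of_mem i
    rw [sp_pure]
    refine ⟨⟨by simp [chStep, e], U ++ r.1 :: W1, W2, by simp [chStep, eV], ?_, fun l p => ?_⟩, ?_⟩
    · simp only [chStep, List.reverse_cons, List.map_append, List.map_cons, List.map_nil]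
      rw [← List.cons_append]
      exact (sl.trans (by simp)).append (List.Sublist.refl _)
    · simpa [chStep] using k _ (.cons p j)
    · have n := eV ▸ nd
      have a1 : V.idxOf r.1 = U.length := by
        rw [eV, List.idxOf_append_of_notMem fun q =>
          (List.nodup_append.1 n).2.2 _ q _ List.mem_cons_self rfl]; simp
      have a2 : V.idxOf (par.get r.1).1 = U.length + 1 + W1.length := by
        have : V = (U ++ r.1 :: W1) ++ (par.get r.1).1 :: W2 := by simp [eV]
        rw [this] at nd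
        rw [this, List.idxOf_append_of_notMem fun q =>
          (List.nodup_append.1 nd).2.2 _ q _ List.mem_cons_self rfl]; simp; omega
      have a3 := congrArg List.length eV
      simp only [chStep, List.length_append, List.length_cons] at a3 ⊢
      omega
  · obtain ⟨U, W, e⟩ := List.append_of_mem hx
    exact ⟨U, W, e, by simp, fun l p => p⟩
  · have := List.length_pos_of_mem hx
    omega
  · rintro r t ⟨c, t', rfl, e, U, W, eV, sl, k⟩
    refine (sp_revL r.2).mono fun l t ⟨a, b⟩ => ?_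
    obtain rfl : r.1 = s := by simpa using c
    subst a
    refine ⟨by simpa using k [] .nil, sl.trans (by simp [eV]), by simp at e ⊢; omega⟩

end Crest.Agent.N325.Dm
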