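import Crest.Agent.N325.Dm.Defs

/-!
# Row 325 (helper43): the invariant of the budgeted depth first search
-/

set_option autoImplicit false
open Finset

namespace Crest.Agent.N325.Dm

namespace Bg

variable {G : Bg}

theorem has_iff {c : ℕ} : G.has c = true ↔ ∃ a, G.mu c = some a := by
  unfold has; cases G.mu c <;> simp

theorem has_false {c : ℕ} : G.has c = false ↔ G.mu c = none := by
  unfold has; cases G.mu c <;> simp

theorem mt_eq {c a : ℕ} (h : G.mu c = some a) : G.mt c = a := by unfold mt; rw [h]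

theorem cadj_eq {c a : ℕ} (h : G.mu c = some a) : G.cadj c = G.adj a := by unfold cadj; rw [h]

theorem mu_mt {c : ℕ} (h : G.has c = true) : G.mu c = some (G.mt c) := by
  obtain ⟨a, e⟩ := has_iff.1 h; rw [mt_eq e, e]

theorem Arc.st {p : ℕ × ℕ} {x : ℕ} (h : G.Arc p x) : G.St p.1 x :=
  let ⟨a, b, c, d, e⟩ := h; ⟨a, b, p.2, c, d, e⟩

@[simp] theorem cvol_nil : G.cvol [] = 0 := rfl
@[simp] theorem cvol_cons (x : ℕ) (l : List ℕ) :
    G.cvol (x :: l) = 1 + (G.cadj x).length + G.cvol l := by simp [cvol]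
@[simp] theorem cvol_append (l m : List ℕ) : G.cvol (l ++ m) = G.cvol l + G.cvol m := by
  simp [cvol]

/-- every class of `L` is reached from `x` inside `L` -/
def Sub (G : Bg) (x : ℕ) (L : List ℕ) : Prop :=
  ∀ S : ℕ → Prop, S x → (∀ y c, S y → G.St y c → c ∈ L → S c) → ∀ y ∈ L, S y

theorem Sub.nil {x : ℕ} : G.Sub x [] := fun _ _ _ _ h => absurd h List.not_mem_nil

theorem Sub.merge {x x' y : ℕ} {A A' : List ℕ} (h : G.Sub x A) (h' : G.Sub x' A')
    (hy : y ∈ x' :: A') (e : G.St y x) : G.Sub x' (A ++ x :: A') := by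
  intro S a b
  have k' : ∀ z ∈ A', S z := h' S a fun y c i j k => b y c i j (by simp [k])
  have ky : S y := by
    rcases List.mem_cons.1 hy with rfl | hy
    exacts [a, k' y hy]
  have kx : S x := b y x ky e (by simp)
  have k : ∀ z ∈ A, S z := h S kx fun y c i j k => b y c i j (by simp [k])
  intro z hz
  rcases List.mem_append.1 hz with hz | hz
  · exact k z hz
  · rcases List.mem_cons.1 hz with rfl | hz
    exacts [kx, k' z hz]

/-- the stack, the visited classes and the time -/
inductive Stk (G : Bg) (s : ℕ) : List Fr → List ℕ → ℕ → Prop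
  | fin {A : List ℕ} {T : ℕ} : G.Sub s A → T = G.cvol (s :: A) → Stk G s [] (A ++ [s]) T
  | bot {A r : List ℕ} {T : ℕ} : G.Sub s A → T + r.length = G.cvol A + (G.cadj s).length →
      Stk G s [(s, r, 0)] (A ++ [s]) T
  | up {A B r : List ℕ} {T c x : ℕ} {f : Fr} {st : List Fr} : Stk G s (f :: st) B c →
      G.St f.1 x → G.Sub x A → T + r.length = c + G.cvol A + (G.cadj x).length →
      Stk G s ((x, r, c) :: f :: st) (A ++ x :: B) T

variable {s : ℕ} {st : List Fr} {V : List ℕ} {T : ℕ}

theorem Stk.sublist (h : G.Stk s st V T) : (st.map Prod.fst).Sublist V := by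
  induction h with
  | fin => simp
  | bot => simp
  | up _ _ _ _ ih =>
    exact (List.Sublist.cons_cons _ ih).trans (List.sublist_append_right _ _)

/-- everything is reached from the start -/
theorem Stk.all (h : G.Stk s st V T) : ∃ U, V = U ++ [s] ∧ G.Sub s U ∧ T ≤ G.cvol V ∧
    (st = [] → T = G.cvol V) := by
  induction h with
  | fin a e => exact ⟨_, rfl, a, by simp at e ⊢; omega, fun _ => by simp at e ⊢; omega⟩
  | bot a e => exact ⟨_, rfl, a, by simp; omega, by simp⟩
  | @up A B r T c x f st k e a t ih =>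
    obtain ⟨U, rfl, b, i, -⟩ := ih
    refine ⟨A ++ x :: U, by simp, a.merge b (y := f.1) ?_ e, by simp at i ⊢; omega, by simp⟩
    have := k.sublist.subset (a := f.1) (by simp)
    simp only [List.mem_append, List.mem_cons, List.not_mem_nil] at this ⊢
    tauto

theorem Stk.mem (h : G.Stk s st V T) : s ∈ V := by
  obtain ⟨U, rfl, -⟩ := h.all; simp

/-- the part of the search above a frame -/
theorem Stk.split {up : List Fr} {f : Fr} (h : G.Stk s (up ++ f :: st) V T) :
    ∃ U B, V = U ++ f.1 :: B ∧ G.Sub f.1 U ∧ T ≤ f.2.2 + G.cvol (f.1 :: U) ∧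
      (up.map Prod.fst).Sublist U ∧
      ((st = [] ∧ B = [] ∧ f.1 = s ∧ f.2.2 = 0) ∨ (st ≠ [] ∧ G.Stk s st B f.2.2)) := by
  induction up generalizing V T with
  | nil =>
    cases h with
    | bot a e => exact ⟨_, [], rfl, a, by simp; omega, by simp, .inl ⟨rfl, rfl, rfl, rfl⟩⟩
    | up k e a t => exact ⟨_, _, rfl, a, by simp; omega, by simp, .inr ⟨by simp, k⟩⟩
  | cons g up ih =>
    generalize e : g :: up ++ f :: st = L at h
    cases h with
    | fin => simp at e
    | bot => simp at e
    | @up A B r T c x f' st' k e' a t =>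
      simp only [List.cons_append, List.cons.injEq] at e
      obtain ⟨rfl, e⟩ := e
      obtain ⟨U, B', rfl, b, i, j, z⟩ := ih (e ▸ k)
      refine ⟨A ++ x :: U, B', by simp, a.merge b (y := f'.1) ?_ e', by simp at i ⊢; omega,
        (List.Sublist.cons_cons _ j).trans (List.sublist_append_right _ _), z⟩
      cases up with
      | nil => simp at e; simp [e.1]
      | cons g' up => simp at e; exact List.mem_cons_of_mem _ (j.subset (by simp [e.1]))

/-- the stack is a path -/
theorem Stk.chain (h : G.Stk s st V T) (hn : st ≠ []) :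
    (st.map Prod.fst).IsChain (fun x y => G.St y x) ∧ (st.map Prod.fst).getLast? = some s ∧
      (st.map fun f => f.2.2).getLast? = some 0 := by
  induction h with
  | fin => exact absurd rfl hn
  | bot => simp
  | up _ e _ _ ih =>
    obtain ⟨a, b, c⟩ := ih (by simp)
    simp only [List.map_cons] at a b c ⊢
    exact ⟨.cons_cons e a, by rw [List.getLast?_cons_cons, b], by rw [List.getLast?_cons_cons, c]⟩

theorem Tree.congr {p p' : ℕ → ℕ × ℕ} {l : List ℕ} (h : G.Tree s p l) (e : ∀ y ∈ l, p' y = p y) :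
    G.Tree s p' l := by
  induction l with
  | nil => trivial
  | cons x l ih =>
    exact ⟨by rw [e x List.mem_cons_self]; exact h.1,
      ih h.2 fun y hy => e y (List.mem_cons_of_mem _ hy)⟩

end Bg

/-- the invariant of the search -/
structure Inv (G : Bg) (Cl : ℕ → Prop) (v0 : Arr Bool) (s : ℕ) (x : Ds) : Prop where
  stk : G.Stk s x.1 x.2.1 x.2.2.2.2
  nd : x.2.1.Nodup
  vis : ∀ y, x.2.2.1.get y = true ↔ y ∈ x.2.1 ∨ v0.get y = true
  dis : ∀ y ∈ x.2.1, v0.get y = false
  cl : ∀ y ∈ x.2.1, Cl y
  sc : ∀ f ∈ x.1, ∀ e ∈ G.cadj f.1, G.ok (G.mt f.1) e = true →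
    e ∈ f.2.1 ∨ x.2.2.1.get (G.hd (G.mt f.1) e) = true
  sub : ∀ f ∈ x.1, ∀ e ∈ f.2.1, e ∈ G.cadj f.1
  fin : ∀ y ∈ x.2.1, y ∉ x.1.map Prod.fst → ∀ c, G.St y c → x.2.2.1.get c = true
  has : ∀ y ∈ x.2.1, G.has y = true ∨ ∃ f st, x.1 = f :: st ∧ f.1 = y
  tree : G.Tree s x.2.2.2.1.get x.2.1
  len : x.2.1.length ≤ x.2.2.2.2 + 1

variable {G : Bg} {Cl : ℕ → Prop} {v0 : Arr Bool} {s ν : ℕ} {g : Gl}

theorem Inv.step (hG : G.WF Cl) {x : Ds} (h : Inv G Cl v0 s x) {f : Fr} {st : List Fr}
    (e : x.1 = f :: st) (hf : G.has f.1 = true) :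
    Inv G Cl v0 s (step G x) ∧ (step G x).2.2.2.2 = x.2.2.2.2 + 1 := by
  obtain ⟨_, V, vis, par, T⟩ := x
  obtain ⟨c, r, t⟩ := f
  obtain rfl : _ = _ := e
  obtain ⟨h1, h2, h3, h4, h5, h6, h7, h8, h9, h10, h11⟩ := h
  dsimp only at h1 h2 h3 h4 h5 h6 h7 h8 h9 h10 h11 hf
  have hm := Bg.mu_mt hf
  have hh : ∀ y ∈ V, G.has y = true := fun y hy => (h9 y hy).elim id fun ⟨f, st', a, b⟩ => by
    cases a; exact b ▸ hf
  have cV : c ∈ V := h1.sublist.subset (by simp)
  cases r with
  | nil =>
    refine ⟨⟨?_, h2, h3, h4, h5, fun f k => h6 f (List.mem_cons_of_mem _ k),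
      fun f k => h7 f (List.mem_cons_of_mem _ k), fun y hy k z hz => ?_,
      fun y hy => .inl (hh y hy), h10, Nat.le_succ_of_le h11⟩, rfl⟩
    · change G.Stk s st V (T + 1)
      cases h1 with
      | bot a e => exact .fin a (by simp at e ⊢; omega)
      | @up A B _ _ _ _ f st k e a i =>
        cases k with
        | @bot A' r' _ a' e' =>
          have := Bg.Stk.bot (r := r') (T := T + 1) (a.merge a' (y := s) (by simp) e)
            (by simp at i ⊢; omega)
          simpa using this
        | @up A' B' r' _ c' x' f' st' k' e' a' i' =>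
          have := Bg.Stk.up (r := r') (T := T + 1) k' e' (a.merge a' (y := x') (by simp) e)
            (by simp at i ⊢; omega)
          simpa using this
    · by_cases b : y = c
      · subst b
        obtain ⟨a, ea, e, k1, k2, rfl⟩ := hz
        have := h6 _ List.mem_cons_self e (by rw [Bg.cadj_eq ea]; exact k1)
          (by rw [Bg.mt_eq ea]; exact k2)
        rw [Bg.mt_eq ea] at this
        exact this.resolve_left List.not_mem_nil
      · exact h8 y hy (fun i => (List.mem_cons.1 i).elim b k) z hz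
  | cons e r =>
    have hs : G.Stk s ((c, r, t) :: st) V (T + 1) := by
      cases h1 with
      | bot a e => exact .bot a (by simp at e ⊢; omega)
      | up k e a i => exact .up k e a (by simp at i ⊢; omega)
    have he : e ∈ G.adj (G.mt c) := by
      rw [← Bg.cadj_eq hm]; exact h7 _ List.mem_cons_self e List.mem_cons_self
    have s7 : ∀ f ∈ (c, r, t) :: st, ∀ e ∈ f.2.1, e ∈ G.cadj f.1 := fun f k e' k' => by
      rcases List.mem_cons.1 k with rfl | k
      · exact h7 _ List.mem_cons_self e' (List.mem_cons_of_mem _ k')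
      · exact h7 f (List.mem_cons_of_mem _ k) e' k'
    by_cases b : G.ok (G.mt c) e = true ∧ vis.get (G.hd (G.mt c) e) = false
    · have es : Dm.step G ((c, e :: r, t) :: st, V, vis, par, T) =
          ((G.hd (G.mt c) e, G.cadj (G.hd (G.mt c) e), T + 1) :: (c, r, t) :: st,
            G.hd (G.mt c) e :: V, vis.set (G.hd (G.mt c) e) true,
            par.set (G.hd (G.mt c) e) (c, e), T + 1) := if_pos b
      rw [es]
      have ar : G.Arc (c, e) (G.hd (G.mt c) e) := ⟨_, hm, he, b.1, rfl⟩
      generalize G.hd (G.mt c) e = z at b ar es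
      have nz : ¬(z ∈ V ∨ v0.get z = true) := fun k => by simp [(h3 z).2 k] at b
      have mono : ∀ y, vis.get y = true → (vis.set z true).get y = true := fun y k => by
        rw [Arr.get_set]; split_ifs <;> simp [k]
      refine ⟨⟨?_, List.nodup_cons.2 ⟨fun k => nz (.inl k), h2⟩, fun y => ?_, fun y hy => ?_,
        fun y hy => ?_, fun f k e' k1 k2 => ?_, fun f k => ?_, fun y hy k w hw => ?_,
        fun y hy => ?_, ⟨.inr ?_, h10.congr fun y hy => ?_⟩, Nat.succ_le_succ h11⟩, rfl⟩
      · exact Bg.Stk.up (A := []) hs ar.st .nil (by simp [add_comm])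
      · dsimp only
        rw [Arr.get_set]
        split_ifs with k
        · simp [k]
        · simp [k, h3 y]
      · rcases List.mem_cons.1 hy with rfl | hy
        · simpa using fun k => nz (.inr k)
        · exact h4 y hy
      · rcases List.mem_cons.1 hy with rfl | hy
        · exact hG.cl _ _ (h5 c cV) ar.st
        · exact h5 y hy
      · rcases List.mem_cons.1 k with rfl | k
        · exact .inl k1
        rcases List.mem_cons.1 k with rfl | k
        · rcases h6 _ List.mem_cons_self e' k1 k2 with i | i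
          · rcases List.mem_cons.1 i with rfl | i
            · obtain ⟨a, a1, -, -, a4⟩ := ar
              rw [Bg.mt_eq a1]
              exact .inr (by rw [a4]; exact Arr.get_set_self ..)
            · exact .inl i
          · exact .inr (mono _ i)
        · exact (h6 f (List.mem_cons_of_mem _ k) e' k1 k2).imp_right (mono _)
      · rcases List.mem_cons.1 k with rfl | k
        · exact fun _ k => k
        · exact s7 f k
      · simp only [List.map_cons, List.mem_cons, not_or] at k hy
        exact mono _ (h8 y (hy.resolve_left k.1) (by simpa using k.2) w hw)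
      · rcases List.mem_cons.1 hy with rfl | hy
        · exact .inr ⟨_, _, rfl, rfl⟩
        · exact .inl (hh y hy)
      · dsimp only
        rw [Arr.get_set_self]; exact ⟨cV, ar⟩
      · exact Arr.get_set_ne _ (fun k : y = z => nz (.inl (k ▸ hy))) _
    · have es : Dm.step G ((c, e :: r, t) :: st, V, vis, par, T) =
          ((c, r, t) :: st, V, vis, par, T + 1) := if_neg b
      rw [es]
      refine ⟨⟨hs, h2, h3, h4, h5, fun f k e' k1 k2 => ?_, s7, h8,
        fun y hy => .inl (hh y hy), h10, Nat.le_succ_of_le h11⟩, rfl⟩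
      rcases List.mem_cons.1 k with rfl | k
      · rcases h6 _ List.mem_cons_self e' k1 k2 with i | i
        · rcases List.mem_cons.1 i with rfl | i
          · exact .inr (by simpa [k2] using b)
          · exact .inl i
        · exact .inr i
      · exact h6 f (List.mem_cons_of_mem _ k) e' k1 k2

/-- **the search stops with an empty stack, at a root, or at the time `ν + 1`** -/
theorem sp_dfs (hG : G.WF Cl) (hs : Cl s) (h0 : v0.get s = false) :
    Sp g (dfs G v0 s ν) fun x t => Inv G Cl v0 s x ∧ x.2.2.2.2 ≤ ν + 1 ∧ t ≤ x.2.2.2.2 + 1 ∧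
      ∀ f st, x.1 = f :: st → G.has f.1 = true → x.2.2.2.2 = ν + 1 := by
  refine (sp_whileF (fun x t => Inv G Cl v0 s x ∧ x.2.2.2.2 ≤ ν + 1 ∧ t = x.2.2.2.2)
    (fun x => ν + 1 - x.2.2.2.2) (fun x t k c => ?_) (t := 0) ⟨⟨?_, by simp, fun y => ?_,
      by simpa using h0, by simpa using hs, by simp +contextual, by simp, by simp,
      fun y hy => .inr ⟨_, _, rfl, (List.mem_singleton.1 hy).symm⟩, ?_, le_rfl⟩,
      by simp, rfl⟩ (by simp)).mono ?_
  · unfold cond at c
    split at c
    · cases c
    · rename_i f st e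
      split_ifs at c with a
      obtain ⟨i, j⟩ := k.1.step hG e c
      rw [sp_pure]
      exact ⟨⟨i, by omega, by omega⟩, by omega⟩
  · exact Bg.Stk.bot (A := []) .nil (by simp)
  · dsimp only
    rw [Arr.get_set]
    split_ifs with k <;> simp [k]
  · exact And.intro (.inl ⟨rfl, rfl⟩) trivial
  · rintro x t ⟨c, u, rfl, k, a, b⟩
    refine ⟨k, a, by omega, fun f st e hf => ?_⟩
    unfold cond at c
    rw [e] at c
    dsimp only at c
    split_ifs at c with i
    · rw [hf] at c; cases c
    · omega

end Crest.Agent.N325.Dm
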