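import Crest.Agent.N325.Dm.Defs
import Crest.Agent.N325.Lst.ListImpl

/-! # Row 325 (helper14): the searches of the edge event are implementable -/

set_option autoImplicit false

namespace Crest.Agent.N325.Dm

variable {α : Type} [Rp α]

/-- the accessors are straight-line code -/
structure BgI (G : α → Bg) : Prop where
  mu : Pu true fun p : α × ℕ => (G p.1).mu p.2
  adj : Pu true fun p : α × ℕ => (G p.1).adj p.2
  ok : Pu false fun p : α × ℕ × ℕ => (G p.1).ok p.2.1 p.2.2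
  hd : Pu true fun p : α × ℕ × ℕ => (G p.1).hd p.2.1 p.2.2

variable {G G' : α → Bg}

theorem BgI.comp {β : Type} [Rp β] (h : BgI G) {f : β → α} (hf : Pu true f) :
    BgI fun b => G (f b) :=
  ⟨h.mu.comp (f := fun p : β × ℕ => (f p.1, p.2)) (by fun_prop),
    h.adj.comp (f := fun p : β × ℕ => (f p.1, p.2)) (by fun_prop),
    h.ok.comp (f := fun p : β × ℕ × ℕ => (f p.1, p.2)) (by fun_prop),
    h.hd.comp (f := fun p : β × ℕ × ℕ => (f p.1, p.2)) (by fun_prop)⟩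

/-- the accessors as functions -/
theorem BgI.ex (h : BgI G) : ∃ (mu : α → ℕ → Option ℕ) (adj : α → ℕ → List ℕ)
    (ok : α → ℕ → ℕ → Bool) (hd : α → ℕ → ℕ → ℕ), (G = fun a => ⟨mu a, adj a, ok a, hd a⟩) ∧
    (Pu true fun p : α × ℕ => mu p.1 p.2) ∧ (Pu true fun p : α × ℕ => adj p.1 p.2) ∧
    (Pu false fun p : α × ℕ × ℕ => ok p.1 p.2.1 p.2.2) ∧
    Pu true fun p : α × ℕ × ℕ => hd p.1 p.2.1 p.2.2 :=
  ⟨fun a => (G a).mu, fun a => (G a).adj, fun a => (G a).ok, fun a => (G a).hd, rfl, h.mu, h.adj,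
    h.ok, h.hd⟩

theorem BgI.flip (h : BgI G) {u : α → ℕ} {ov : α → Arr ℕ} (hu : Pu true u) (ho : Pu true ov) :
    BgI fun a => flip (G a) (u a) (ov a) := by
  obtain ⟨mu, adj, ok, hd, rfl, h1, h2, h3, h4⟩ := h.ex
  refine ⟨?_, h2, h3, h4⟩
  unfold Dm.flip; dsimp only; fun_prop

theorem BgI.mt (h : BgI G) : Pu true fun p : α × ℕ => (G p.1).mt p.2 := by
  obtain ⟨mu, adj, ok, hd, rfl, h1, h2, h3, h4⟩ := h.ex
  unfold Bg.mt; dsimp only; impl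

theorem BgI.has (h : BgI G) : Pu false fun p : α × ℕ => (G p.1).has p.2 := by
  obtain ⟨mu, adj, ok, hd, rfl, h1, h2, h3, h4⟩ := h.ex
  unfold Bg.has; dsimp only; impl

theorem impl_dfs (h : BgI G) :
    Impl fun p : α × Arr Bool × ℕ × ℕ => dfs (G p.1) p.2.1 p.2.2.1 p.2.2.2 := by
  obtain ⟨mu, adj, ok, hd, rfl, h1, h2, h3, h4⟩ := h.ex
  unfold dfs cond step Bg.cadj Bg.mt Bg.has; dsimp only; impl

@[fun_prop] theorem impl_ovl {st : α → List Fr} (h : Pu true st) : Impl fun a => ovl (st a) := by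
  unfold ovl ovStep; impl

theorem impl_closeOut (h : BgI G) (h' : BgI G') :
    Impl fun p : α × ℕ × List ℕ => closeOut (G p.1) (G' p.1) p.2.1 p.2.2 := by
  obtain ⟨mu, adj, ok, hd, rfl, h1, h2, h3, h4⟩ := h.ex
  obtain ⟨mu', adj', ok', hd', rfl, k1, k2, k3, k4⟩ := h'.ex
  unfold closeOut baseOf Bg.mt Bg.has; dsimp only; impl

theorem impl_test (h : BgI G) :
    Impl fun p : α × ℕ × ℕ × ℕ => test (G p.1) p.2.1 p.2.2.1 p.2.2.2 := by
  have hf : BgI fun p : α × ℕ × Arr ℕ => flip (G p.1) p.2.1 p.2.2 :=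
    (h.comp (by fun_prop)).flip (by fun_prop) (by fun_prop)
  have h1 := impl_dfs h
  have h2 := impl_dfs hf
  have h3 := impl_closeOut (h.comp (f := fun p : α × ℕ × Arr ℕ => p.1) (by fun_prop)) hf
  have h4 := h.has
  obtain ⟨d1, e1⟩ : ∃ d : α → Arr Bool → ℕ → ℕ → R Ds, ∀ a, dfs (G a) = d a := ⟨_, fun _ => rfl⟩
  obtain ⟨d2, e2⟩ : ∃ d : α × ℕ × Arr ℕ → Arr Bool → ℕ → ℕ → R Ds,
    ∀ a u ov, dfs (flip (G a) u ov) = d (a, u, ov) :=
    ⟨fun p => dfs (flip (G p.1) p.2.1 p.2.2), fun _ _ _ => rfl⟩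
  obtain ⟨d3, e3⟩ : ∃ d : α × ℕ × Arr ℕ → ℕ → List ℕ → R (Option (List ℕ × List ℕ × ℕ)),
    ∀ a u ov, closeOut (G a) (flip (G a) u ov) = d (a, u, ov) :=
    ⟨fun p => closeOut (G p.1) (flip (G p.1) p.2.1 p.2.2), fun _ _ _ => rfl⟩
  obtain ⟨d4, e4⟩ : ∃ d : α → ℕ → Bool, ∀ a, (G a).has = d a := ⟨_, fun _ => rfl⟩
  unfold test young pop
  simp only [e1, e2, e3, e4] at h1 h2 h3 h4 ⊢
  impl

theorem impl_dom (h : BgI G) :
    Impl fun p : α × ℕ × ℕ × ℕ => dom (G p.1) p.2.1 p.2.2.1 p.2.2.2 := by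
  have h1 := impl_test h
  obtain ⟨d1, e1⟩ : ∃ d : α → ℕ → ℕ → ℕ → R (Option (List ℕ × List ℕ × ℕ)),
    ∀ a, test (G a) = d a := ⟨_, fun _ => rfl⟩
  unfold dom noRes
  simp only [e1] at h1 ⊢
  impl

@[fun_prop] theorem impl_chase {par : α → Arr (ℕ × ℕ)} {s x fu : α → ℕ} (h1 : Pu true par)
    (h2 : Pu true s) (h3 : Pu true x) (h4 : Pu true fu) :
    Impl fun a => chase (par a) (s a) (x a) (fu a) := by
  unfold chase chStep; impl

theorem impl_bfs (h : BgI G) :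
    Impl fun p : α × ℕ × ℕ × ℕ => bfs (G p.1) p.2.1 p.2.2.1 p.2.2.2 := by
  have h1 := impl_dfs h
  have h4 := h.has
  obtain ⟨d1, e1⟩ : ∃ d : α → Arr Bool → ℕ → ℕ → R Ds, ∀ a, dfs (G a) = d a := ⟨_, fun _ => rfl⟩
  obtain ⟨d4, e4⟩ : ∃ d : α → ℕ → Bool, ∀ a, (G a).has = d a := ⟨_, fun _ => rfl⟩
  unfold bfs
  simp only [e1, e4] at h1 h4 ⊢
  impl

end Crest.Agent.N325.Dm
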