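import Crest.Agent.N325.Dm.Bfs

/-!
# Row 325 (helper43): the mates flipped along a path
-/

set_option autoImplicit false
open Finset

namespace Crest.Agent.N325.Dm

/-- `p + 1` if `p` follows `c` in the list, else `0` -/
def nxt : List ℕ → ℕ → ℕ
  | x :: y :: l, c => if c = x then y + 1 else nxt (y :: l) c
  | _, _ => 0

theorem nxt_con {L : List ℕ} {c p : ℕ} (h : nxt L c = p + 1) : ∃ l m, L = l ++ c :: p :: m := by
  induction L with
  | nil => cases h
  | cons x L ih =>
    cases L with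
    | nil => cases h
    | cons y L =>
      rw [nxt] at h
      split_ifs at h with e
      · exact ⟨[], L, by simp at h; simp [e, h]⟩
      · obtain ⟨l, m, k⟩ := ih h
        exact ⟨x :: l, m, by simp [k]⟩

theorem con_nxt {l m : List ℕ} {c p : ℕ} (n : c ∉ l) : nxt (l ++ c :: p :: m) c = p + 1 := by
  induction l with
  | nil => simp [nxt]
  | cons x l ih =>
    have k := ih fun i => n (List.mem_cons_of_mem _ i)
    have e : c ≠ x := fun e => n (e ▸ List.mem_cons_self)
    cases l with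
    | nil => rw [List.cons_append, List.nil_append, nxt, if_neg e]; exact k
    | cons y l => rw [List.cons_append, List.cons_append, nxt, if_neg e]; exact k

theorem nxt_of_not_mem {L : List ℕ} {c : ℕ} (n : c ∉ L) : nxt L c = 0 := by
  by_contra k
  obtain ⟨p, e⟩ := Nat.exists_eq_succ_of_ne_zero k
  obtain ⟨l, m, rfl⟩ := nxt_con e
  simp at n

theorem foldl_ovStep (l : List Fr) (x : ℕ) (A : Arr ℕ) (nd : (x :: l.map Prod.fst).Nodup) (c : ℕ) :
    (l.foldl (fun s a => ovStep a s) (x, A)).2.get c =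
      if nxt (x :: l.map Prod.fst) c = 0 then A.get c else nxt (x :: l.map Prod.fst) c := by
  induction l generalizing x A with
  | nil => simp [nxt]
  | cons f l ih =>
    obtain ⟨n1, n2⟩ := List.nodup_cons.1 nd
    rw [List.foldl_cons, ovStep, ih _ _ n2, List.map_cons, nxt, Arr.get_set]
    by_cases e : c = x
    · subst e
      rw [List.map_cons] at n1
      simp [nxt_of_not_mem n1]
    · simp [e]

variable {g : Gl}

theorem sp_ovl {st : List Fr} (nd : (st.map Prod.fst).Nodup) :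
    Sp g (ovl st) fun ov t => (∀ c, ov.get c = nxt (st.map Prod.fst) c) ∧ t ≤ st.length := by
  cases st with
  | nil => exact ⟨fun _ => rfl, le_rfl⟩
  | cons f l =>
    refine (sp_foldP _ l _).bind fun r t h => ⟨fun c => ?_, by simp [h.2]⟩
    rw [h.1, foldl_ovStep _ _ _ nd]
    split_ifs with e
    · exact e.symm
    · rfl

/-- `L` is a simple backward path from `u` (its end first), `ov` is its overlay -/
structure Ov (G : Bg) (Cl : ℕ → Prop) (u : ℕ) (L : List ℕ) (ov : Arr ℕ) : Prop where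
  nd : L.Nodup
  cl : ∀ y ∈ L, Cl y
  ch : L.IsChain fun x y => G.St y x
  last : L.getLast? = some u
  ov : ∀ c, ov.get c = nxt L c

variable {G : Bg} {Cl : ℕ → Prop} {u u2 d : ℕ} {L : List ℕ} {ov : Arr ℕ} {A C : Finset ℕ}

theorem flip_nb {a c : ℕ} : (flip G u ov).Nb a c ↔ G.Nb a c := Iff.rfl
theorem flip_vol (A : Finset ℕ) : (flip G u ov).vol A = G.vol A := rfl
theorem flip_u : (flip G u ov).mu u = none := if_pos rfl

namespace Ov

theorem mem (h : Ov G Cl u L ov) : u ∈ L := List.mem_of_getLast? h.last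

theorem st (h : Ov G Cl u L ov) {c p : ℕ} (e : ov.get c = p + 1) :
    G.St p c ∧ c ∈ L ∧ p ∈ L ∧ c ≠ u := by
  obtain ⟨l, m, rfl⟩ := nxt_con (h.ov c ▸ e)
  refine ⟨(List.isChain_cons_cons.1 h.ch.right_of_append).1, by simp, by simp, fun k => ?_⟩
  have a := h.last
  rw [List.getLast?_append_of_ne_nil _ (by simp), List.getLast?_cons_cons] at a
  exact (List.nodup_cons.1 (List.nodup_append.1 h.nd).2.1).1 (k ▸ List.mem_of_getLast? a)

theorem inj (h : Ov G Cl u L ov) {c c' p : ℕ} (e : ov.get c = p + 1) (e' : ov.get c' = p + 1) :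
    c = c' := by
  obtain ⟨l, m, a⟩ := nxt_con (h.ov c ▸ e)
  obtain ⟨l', m', a'⟩ := nxt_con (h.ov c' ▸ e')
  have n := h.nd
  rw [a, show l ++ c :: p :: m = (l ++ [c]) ++ p :: m by simp, List.nodup_append] at n
  have := ((List.append_cons_inj_of_notMem (x₁ := l ++ [c]) (x₂ := l' ++ [c']) (z₁ := m) (z₂ := m')
    (a₁ := p) (fun i => n.2.2 _ i _ List.mem_cons_self rfl) (List.nodup_cons.1 n.2.1).1).1
    (by simpa using a.symm.trans a')).1
  simpa using (List.append_inj_right' this rfl)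

theorem ne_zero (h : Ov G Cl u L ov) {c : ℕ} (i : c ∈ L) (n : c ≠ u) : ov.get c ≠ 0 := by
  obtain ⟨l, m, rfl⟩ := List.append_of_mem i
  cases m with
  | nil => exact absurd (by simpa using h.last) n
  | cons p m =>
    rw [h.ov, con_nxt fun j => (List.nodup_append.1 h.nd).2.2 _ j _ List.mem_cons_self rfl]
    omega

theorem prev (h : Ov G Cl u L ov) {p : ℕ} (i : p ∈ L) (n : L.head? ≠ some p) :
    ∃ c, ov.get c = p + 1 := by
  obtain ⟨l, m, rfl⟩ := List.append_of_mem i
  rcases List.eq_nil_or_concat l with rfl | ⟨l, c, rfl⟩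
  · simp at n
  · have nd := h.nd
    have e := h.ov c
    rw [List.concat_eq_append, List.append_assoc, List.singleton_append] at nd e
    exact ⟨c, e.trans (con_nxt fun j => (List.nodup_append.1 nd).2.2 _ j _ List.mem_cons_self rfl)⟩

/-- off the path nothing changes -/
theorem mu_off (h : Ov G Cl u L ov) {c : ℕ} (n : c ∉ L) : (flip G u ov).mu c = G.mu c := by
  have : c ≠ u := fun e => n (e ▸ h.mem)
  simp [flip, this, h.ov, nxt_of_not_mem n]

/-- on the path a class gets the mate of its predecessor -/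
theorem mu_on (h : Ov G Cl u L ov) {c p : ℕ} (e : ov.get c = p + 1) :
    (flip G u ov).mu c = G.mu p := by
  simp [flip, (h.st e).2.2.2, e]

theorem cases (h : Ov G Cl u L ov) (c : ℕ) : c = u ∨ (c ∉ L ∧ (flip G u ov).mu c = G.mu c) ∨
    ∃ p, ov.get c = p + 1 ∧ (flip G u ov).mu c = G.mu p := by
  by_cases e : c = u
  · exact .inl e
  by_cases i : c ∈ L
  · obtain ⟨p, k⟩ := Nat.exists_eq_succ_of_ne_zero (h.ne_zero i e)
    exact .inr (.inr ⟨p, k, h.mu_on k⟩)
  · exact .inr (.inl ⟨i, h.mu_off i⟩)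

/-- a flipped mate is an old mate -/
theorem old (h : Ov G Cl u L ov) {c a : ℕ} (i : Cl c) (e : (flip G u ov).mu c = some a) :
    ∃ c', Cl c' ∧ G.mu c' = some a := by
  rcases h.cases c with rfl | ⟨-, k⟩ | ⟨p, j, k⟩
  · rw [flip_u] at e; cases e
  · exact ⟨c, i, k ▸ e⟩
  · exact ⟨p, h.cl p (h.st j).2.2.1, k ▸ e⟩

/-- an old mate stays a mate, except the mate of the end of the path -/
theorem new (h : Ov G Cl u L ov) {c a : ℕ} (i : Cl c) (e : G.mu c = some a)
    (n : L.head? ≠ some c) : ∃ c', Cl c' ∧ (flip G u ov).mu c' = some a := by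
  by_cases j : c ∈ L
  · obtain ⟨c', k⟩ := h.prev j n
    exact ⟨c', h.cl c' (h.st k).2.1, (h.mu_on k).trans e⟩
  · exact ⟨c, i, (h.mu_off j).trans e⟩

theorem wf (h : Ov G Cl u L ov) (hG : G.WF Cl) : (flip G u ov).WF Cl := by
  refine ⟨fun c c' a i i' e e' => ?_, fun c a i e => ?_, fun c c' i ⟨a, e, n⟩ => ?_⟩
  · rcases h.cases c with rfl | ⟨j, k⟩ | ⟨p, j, k⟩
    · rw [flip_u] at e; cases e
    all_goals rcases h.cases c' with rfl | ⟨j', k'⟩ | ⟨p', j', k'⟩
    · rw [flip_u] at e'; cases e'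
    · exact hG.inj c c' a i i' (k ▸ e) (k' ▸ e')
    · exact absurd (hG.inj c p' a i (h.cl _ (h.st j').2.2.1) (k ▸ e) (k' ▸ e') ▸ (h.st j').2.2.1) j
    · rw [flip_u] at e'; cases e'
    · exact absurd (hG.inj c' p a i' (h.cl _ (h.st j).2.2.1) (k' ▸ e') (k ▸ e) ▸ (h.st j).2.2.1) j'
    · obtain rfl := hG.inj p p' a (h.cl _ (h.st j).2.2.1) (h.cl _ (h.st j').2.2.1) (k ▸ e) (k' ▸ e')
      exact h.inj j j'
  · rcases h.cases c with rfl | ⟨-, k⟩ | ⟨p, j, k⟩
    · rw [flip_u] at e; cases e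
    · exact hG.nb c a i (k ▸ e)
    · obtain ⟨a', e', n⟩ := (h.st j).1
      obtain rfl : a' = a := Option.some.inj (e'.symm.trans (k ▸ e))
      exact n
  · obtain ⟨p, j, k⟩ := h.old i e
    exact hG.cl p c' j ⟨a, k, n⟩

theorem surplus (h : Ov G Cl u L ov) (hS : G.Surplus Cl) : (flip G u ov).Surplus Cl :=
  fun A C n m k => hS A C n (fun a i => let ⟨_, j, e⟩ := m a i; h.old j e) k

/-- a closed region of the flipped mates is a closed region -/
theorem closed_old (h : Ov G Cl u L ov) (hG : G.WF Cl) {v : ℕ}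
    (k : (flip G u ov).Closed Cl v u2 A C d) : ∃ d', G.Closed Cl v u2 A C d' :=
  Bg.Closed.of_card hG k.hu k.hu2 k.cl k.nb k.card fun _ i =>
    let ⟨c, j, _, e⟩ := k.partner (h.wf hG) i; h.old (k.cl c j) e

/-- a closed region that the path leaves has the base `u` after the flip -/
theorem closed_new (h : Ov G Cl u L ov) (hG : G.WF Cl) (k : G.Closed Cl u u2 A C d)
    (n : ∀ y, L.head? = some y → ¬(y ∈ C ∧ y ≠ d)) : (flip G u ov).Closed Cl u u2 A C u := by
  obtain ⟨d', k'⟩ := Bg.Closed.of_card (h.wf hG) k.hu k.hu2 k.cl k.nb k.card fun _ i =>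
    let ⟨c, j, j', e⟩ := k.partner hG i; h.new (k.cl c j) e fun q => n c q ⟨j, j'⟩
  exact k'.root k.hu flip_u ▸ k'

end Ov

/-- the overlay of a path given by its arcs -/
theorem Ov.of_pth {x : ℕ} {l : List (ℕ × ℕ)} (p : G.Pth u x l) (nd : (x :: l.map Prod.fst).Nodup)
    (cl : ∀ y ∈ x :: l.map Prod.fst, Cl y) (e : ∀ c, ov.get c = nxt (x :: l.map Prod.fst) c) :
    Ov G Cl u (x :: l.map Prod.fst) ov :=
  ⟨nd, cl, p.chain.1, p.chain.2, e⟩

end Crest.Agent.N325.Dm
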