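import Crest.Agent.N325.Dm.Dfs

/-!
# Row 325 (helper43): closed regions, the path that leaves every small closed region, the overlay
-/

set_option autoImplicit false
open Finset

namespace Crest.Agent.N325.Dm

namespace Bg

variable {G : Bg} {Cl : ℕ → Prop} {u u2 d : ℕ} {A C : Finset ℕ}

theorem WF.inj_mt (hG : G.WF Cl) {c c' : ℕ} (a : Cl c) (b : Cl c') (h : G.has c = true)
    (h' : G.has c' = true) (e : G.mt c = G.mt c') : c = c' :=
  hG.inj c c' _ a b (mu_mt h) (e ▸ mu_mt h')

theorem cvol_eq (hG : G.WF Cl) {L : List ℕ} (nd : L.Nodup)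
    (h : ∀ c ∈ L, Cl c ∧ G.has c = true) : G.cvol L = G.vol (L.map G.mt).toFinset := by
  have n : (L.map G.mt).Nodup := nd.map_on fun c a c' b e =>
    hG.inj_mt (h c a).1 (h c' b).1 (h c a).2 (h c' b).2 e
  rw [vol, List.sum_toFinset _ n, List.map_map, cvol]
  exact congrArg _ (List.map_congr_left fun c a => by
    rw [cadj_eq (mu_mt (h c a).2)]; rfl)

theorem cvol_le (hG : G.WF Cl) {L : List ℕ} (nd : L.Nodup)
    (h : ∀ c ∈ L, Cl c ∧ ∃ a ∈ A, G.mu c = some a) : G.cvol L ≤ G.vol A := by
  rw [cvol_eq hG nd fun c a => ⟨(h c a).1, let ⟨a, _, e⟩ := (h c a).2; has_iff.2 ⟨a, e⟩⟩]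
  refine sum_le_sum_of_subset fun a k => ?_
  obtain ⟨c, i, rfl⟩ := List.mem_map.1 (List.mem_toFinset.1 k)
  obtain ⟨a, j, e⟩ := (h c i).2
  rwa [mt_eq e]

theorem card_le_vol (A : Finset ℕ) : #A ≤ G.vol A := by
  rw [vol, card_eq_sum_ones]; exact sum_le_sum fun _ _ => Nat.le_add_right _ _

theorem Closed.step (h : G.Closed Cl u u2 A C d) {c c' : ℕ} (i : c ∈ C) (j : c ≠ d)
    (e : G.St c c') : c' ∈ C := by
  obtain ⟨a, k, ea⟩ := h.mu c i j
  obtain ⟨a', ea', n⟩ := e
  obtain rfl : a = a' := Option.some.inj (ea.symm.trans ea')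
  exact h.nb a k c' n

/-- every inner vertex of a closed region is the mate of one of its classes -/
theorem Closed.partner (hG : G.WF Cl) (h : G.Closed Cl u u2 A C d) {a : ℕ} (ha : a ∈ A) :
    ∃ c ∈ C, c ≠ d ∧ G.mu c = some a := by
  have k : ∀ c ∈ C.erase d, G.has c = true ∧ G.mt c ∈ A := fun c i => by
    obtain ⟨a, j, e⟩ := h.mu c (mem_of_mem_erase i) (ne_of_mem_erase i)
    exact ⟨has_iff.2 ⟨a, e⟩, by rwa [mt_eq e]⟩
  have e : (C.erase d).image G.mt = A := by
    refine eq_of_subset_of_card_le (fun a i => ?_) ?_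
    · obtain ⟨c, j, rfl⟩ := mem_image.1 i; exact (k c j).2
    · rw [card_image_of_injOn fun c i c' j e => hG.inj_mt (h.cl c (mem_of_mem_erase i))
        (h.cl c' (mem_of_mem_erase j)) (k c i).1 (k c' j).1 e, card_erase_of_mem h.hd, h.card]
      omega
  obtain ⟨c, j, rfl⟩ := mem_image.1 (e ▸ ha)
  exact ⟨c, mem_of_mem_erase j, ne_of_mem_erase j, mu_mt (k c j).1⟩

/-- the mate of the base lies outside -/
theorem Closed.base (hG : G.WF Cl) (h : G.Closed Cl u u2 A C d) {a : ℕ} (ha : a ∈ A) :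
    G.mu d ≠ some a := fun e =>
  let ⟨c, i, j, k⟩ := h.partner hG ha; j (hG.inj c d a (h.cl c i) (h.cl d h.hd) k e)

theorem Closed.base_eq (hG : G.WF Cl) (h : G.Closed Cl u u2 A C d) {d' : ℕ}
    (h' : G.Closed Cl u u2 A C d') : d = d' := by
  by_contra n
  obtain ⟨a, i, e⟩ := h'.mu d h.hd n
  exact h.base hG i e

/-- a nonempty set of classes that is closed under steps contains a root -/
theorem Surplus.root (hG : G.WF Cl) (h : G.Surplus Cl) {S : Finset ℕ} (n : S.Nonempty)
    (c : ∀ y ∈ S, Cl y) (k : ∀ y ∈ S, ∀ z, G.St y z → z ∈ S) : ∃ y ∈ S, G.has y = false := by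
  by_contra! r
  have r : ∀ y ∈ S, G.has y = true := fun y i => by simpa using r y i
  have := h (S.image G.mt) S (n.image _) (fun a i => ?_) fun a i z j => ?_
  · rw [card_image_of_injOn fun y i z j e => hG.inj_mt (c y i) (c z j) (r y i) (r z j) e] at this
    omega
  · obtain ⟨y, j, rfl⟩ := mem_image.1 i; exact ⟨y, c y j, mu_mt (r y j)⟩
  · obtain ⟨y, j', rfl⟩ := mem_image.1 i; exact k y j' z ⟨_, mu_mt (r y j'), j⟩

theorem Closed.sub (h : G.Closed Cl u u2 A C d) {x : ℕ} {L : List ℕ} (s : G.Sub x L)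
    (i : x ∈ C) (j : x ≠ d) (n : d ∉ L) : ∀ y ∈ L, y ∈ C ∧ y ≠ d :=
  s (fun y => y ∈ C ∧ y ≠ d) ⟨i, j⟩ fun _ _ a e b => ⟨h.step a.1 a.2 e, fun k => n (k ▸ b)⟩

theorem Closed.cvol (hG : G.WF Cl) (h : G.Closed Cl u u2 A C d) {L : List ℕ} (nd : L.Nodup)
    (k : ∀ y ∈ L, y ∈ C ∧ y ≠ d) : G.cvol L ≤ G.vol A :=
  cvol_le hG nd fun c i => ⟨h.cl c (k c i).1, h.mu c (k c i).1 (k c i).2⟩

/-- a path from `u` that avoids the base stays inside -/
theorem Closed.chain (h : G.Closed Cl u u2 A C d) {L : List ℕ}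
    (c : L.IsChain fun x y => G.St y x) (e : L.getLast? = some u) (n : d ∉ L) :
    ∀ y ∈ L, y ∈ C ∧ y ≠ d := by
  induction L with
  | nil => simp
  | cons x L ih =>
    have nx : x ≠ d := fun k => n (k ▸ List.mem_cons_self)
    cases L with
    | nil =>
      obtain rfl : x = u := by simpa using e
      simpa using ⟨h.hu, nx⟩
    | cons y L =>
      rw [List.isChain_cons_cons] at c
      have k := ih c.2 (by rwa [List.getLast?_cons_cons] at e) fun i => n (List.mem_cons_of_mem _ i)
      intro z hz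
      rcases List.mem_cons.1 hz with rfl | hz
      · exact ⟨h.step (k y List.mem_cons_self).1 (k y List.mem_cons_self).2 c.1, nx⟩
      · exact k z hz

end Bg

variable {G : Bg} {Cl : ℕ → Prop} {u u2 d ν : ℕ} {A C : Finset ℕ} {g : Gl}

theorem Inv.ne_nil (hG : G.WF Cl) (hS : G.Surplus Cl) {x : Ds}
    (h : Inv G Cl (Arr.cst false) u x) : x.1 ≠ [] := fun e => by
  obtain ⟨y, i, r⟩ := hS.root hG (S := x.2.1.toFinset) ⟨u, List.mem_toFinset.2 h.stk.mem⟩
    (fun y i => h.cl y (List.mem_toFinset.1 i)) fun y i z j => by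
      simpa using (h.vis z).1 (h.fin y (List.mem_toFinset.1 i) (by simp [e]) z j)
  rcases h.has y (List.mem_toFinset.1 i) with k | ⟨f, st, k, -⟩
  · rw [r] at k; cases k
  · rw [e] at k; cases k

/-- the first old frame lies outside every small closed region (or is its base) -/
theorem Inv.out (hG : G.WF Cl) (hS : G.Surplus Cl) {x : Ds} (h : Inv G Cl (Arr.cst false) u x)
    (hT : ∀ f st, x.1 = f :: st → G.has f.1 = true → x.2.2.2.2 = 2 * ν + 1)
    {up st : List Fr} {f : Fr} (e : x.1 = up ++ f :: st)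
    (hu : ∀ f ∈ up, x.2.2.2.2 - f.2.2 ≤ ν ∧ G.has f.1 = true) (hf : ν < x.2.2.2.2 - f.2.2)
    (k : G.Closed Cl u u2 A C d) (hv : G.vol A ≤ ν) : ¬(f.1 ∈ C ∧ f.1 ≠ d) := by
  rintro ⟨i, j⟩
  have h1 := h.stk
  have nd := h.nd
  rw [e] at h1
  obtain ⟨U, B, eV, sb, le, -, z⟩ := h1.split
  have dU : d ∈ U := by
    by_contra n
    have := k.cvol hG (L := f.1 :: U) ?_ (by simpa using ⟨⟨i, j⟩, k.sub sb i j n⟩)
    · omega
    · rw [eV] at nd
      exact (List.perm_middle.nodup_iff.1 nd).sublist ((List.sublist_append_left _ _).cons_cons _)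
  by_cases b : d ∈ x.1.map Prod.fst
  · have b' : d ∈ up.map Prod.fst := by
      rw [e, List.map_append, List.mem_append] at b
      refine b.resolve_right fun b => ?_
      rw [eV] at nd
      rcases List.mem_cons.1 b with b | b
      · exact j b.symm
      · rcases z with ⟨rfl, -⟩ | ⟨-, z⟩
        · simp at b
        · exact (List.nodup_append.1 nd).2.2 _ dU _ (List.mem_cons_of_mem _ (z.sublist.subset b)) rfl
    obtain ⟨f', m, rfl⟩ := List.mem_map.1 b'
    obtain ⟨u1, u3, rfl⟩ := List.append_of_mem m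
    have t : x.2.2.2.2 = 2 * ν + 1 := by
      cases u1 with
      | nil => exact hT _ _ e (hu _ (by simp)).2
      | cons f'' u1 => exact hT _ _ e (hu _ (by simp)).2
    have y := (hu f' m).1
    rw [List.append_assoc, List.cons_append] at h1
    obtain ⟨U', B', eV', -, -, -, ⟨z, -⟩ | ⟨-, z⟩⟩ := h1.split
    · simp at z
    · obtain ⟨U'', rfl, sb', le', -⟩ := z.all
      rw [eV'] at nd
      have nd' := List.nodup_cons.1 (List.nodup_append.1 nd).2.1
      have nu : u ≠ f'.1 := fun c => nd'.1 (by simp [c])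
      have := k.cvol hG nd'.2 fun y c => by
        rcases List.mem_append.1 c with c | c
        · exact k.sub sb' k.hu nu (fun c => nd'.1 (by simp [c])) y c
        · rw [List.mem_singleton.1 c]; exact ⟨k.hu, nu⟩
      omega
  · obtain ⟨c1, c2, -⟩ := h.stk.chain (by simp [e])
    have ks := k.chain c1 c2 b
    have dV : d ∈ x.2.1 := by simp [eV, dU]
    refine (hS.root hG
      (S := x.2.1.toFinset.filter (fun y => y ∉ x.1.map Prod.fst) ∪ C.erase d)
      ⟨d, by simp only [mem_union, mem_filter, List.mem_toFinset]; exact .inl ⟨dV, b⟩⟩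
      (fun y m => ?_) fun y m z w => ?_).elim fun y ⟨m, r⟩ => ?_
    rotate_right
    · simp only [mem_union, mem_filter, List.mem_toFinset, mem_erase] at m
      rcases m with m | m
      · rcases h.has y m.1 with c | ⟨f', st', c, rfl⟩
        · rw [r] at c; cases c
        · exact m.2 (by simp [c])
      · obtain ⟨a, -, c⟩ := k.mu y m.2 m.1
        rw [Bg.has_false, c] at r; cases r
    · simp only [mem_union, mem_filter, List.mem_toFinset, mem_erase] at m
      exact m.elim (fun m => h.cl y m.1) fun m => k.cl y m.2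
    · simp only [mem_union, mem_filter, List.mem_toFinset, mem_erase] at m ⊢
      rcases m with m | m
      · have zV : z ∈ x.2.1 := by simpa using (h.vis z).1 (h.fin y m.1 m.2 z w)
        by_cases c : z ∈ x.1.map Prod.fst
        · exact .inr (ks z c).symm
        · exact .inl ⟨zV, c⟩
      · by_cases c : z = d
        · exact .inl (c ▸ ⟨dV, b⟩)
        · exact .inr ⟨c, k.step m.2 m.1 w⟩

/-- a path from `u` (its end first) that leaves every closed region of volume at most `ν` -/
structure Exit (G : Bg) (Cl : ℕ → Prop) (u u2 ν : ℕ) (L : List ℕ) : Prop where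
  nd : L.Nodup
  cl : ∀ y ∈ L, Cl y
  ch : L.IsChain fun x y => G.St y x
  last : L.getLast? = some u
  out : ∀ A C d, G.Closed Cl u u2 A C d → G.vol A ≤ ν → ∀ y, L.head? = some y → ¬(y ∈ C ∧ y ≠ d)

theorem sp_pops (hG : G.WF Cl) (hS : G.Surplus Cl) {x : Ds} (h : Inv G Cl (Arr.cst false) u x)
    (hl : x.2.2.2.2 ≤ 2 * ν + 1)
    (hT : ∀ f st, x.1 = f :: st → G.has f.1 = true → x.2.2.2.2 = 2 * ν + 1) :
    Sp g (whileF (young G x.2.2.2.2 ν) (fun st => pure (pop st)) (2 * ν + 3) x.1) fun st t =>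
      Exit G Cl u u2 ν (st.map Prod.fst) ∧ st.length ≤ 2 * ν + 2 ∧ t ≤ 2 * ν + 3 := by
  have hn : List.length (α := Fr) x.1 ≤ 2 * ν + 2 := by
    have := h.stk.sublist.length_le
    have := h.len
    rw [List.length_map] at *
    exact le_trans ‹_› (by omega)
  refine (sp_whileF' (fun st => ∃ up, x.1 = up ++ st ∧
      ∀ f ∈ up, x.2.2.2.2 - f.2.2 ≤ ν ∧ G.has f.1 = true) (fun st : List Fr => st.length)
      (fun st k c => ?_)
      ⟨[], rfl, by simp⟩ (Nat.lt_succ_of_le hn)).mono ?_
  · obtain ⟨up, e, k⟩ := k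
    cases st with
    | nil => cases c
    | cons f st =>
      simp only [young] at c
      split_ifs at c with a
      rw [sp_pure]
      refine ⟨⟨up ++ [f], by simp [e, pop], fun f' m => ?_⟩, by simp [pop]; omega⟩
      rcases List.mem_append.1 m with m | m
      · exact k f' m
      · rw [List.mem_singleton.1 m]; exact ⟨a, c⟩
  · rintro st t ⟨c, ⟨up, e, k⟩, le⟩
    have ne := h.ne_nil hG hS
    obtain ⟨c1, c2, c3⟩ := h.stk.chain ne
    have sl := h.stk.sublist
    cases st with
    | nil =>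
      exfalso
      rw [List.append_nil] at e
      obtain ⟨f, m, z⟩ := List.mem_map.1 (List.mem_of_getLast? c3)
      have := (k f (e ▸ m)).1
      cases e' : x.1 with
      | nil => exact ne e'
      | cons f' st => have := hT _ _ e' (k f' (by simp [← e, e'])).2; omega
    | cons f st =>
      have l := congrArg List.length e
      rw [List.length_append] at l
      refine ⟨⟨?_, fun y m => h.cl y (sl.subset ?_), ?_, ?_, fun A C d a b y hy => ?_⟩,
        by omega, (Nat.le_add_right _ _).trans (le.trans (Nat.succ_le_succ hn))⟩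
      · exact (h.nd.sublist sl).sublist (by rw [e, List.map_append]; exact List.sublist_append_right _ _)
      · rw [e, List.map_append]; exact List.mem_append_right _ m
      · rw [e, List.map_append] at c1; exact c1.right_of_append
      · rw [e, List.map_append, List.getLast?_append] at c2
        simpa using c2
      · obtain rfl : f.1 = y := by simpa using hy
        simp only [young] at c
        split_ifs at c with i
        · rintro ⟨j, j'⟩
          obtain ⟨a, -, z⟩ := a.mu _ j j'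
          rw [Bg.has_false, z] at c; cases c
        · exact h.out hG hS hT e k (by omega) a b

end Crest.Agent.N325.Dm
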