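import Crest.Agent.N325.Dm.Ov

/-!
# Row 325 (helper43): the test and the doubling search for a small closed region
-/

set_option autoImplicit false
open Finset

namespace Crest.Agent.N325.Dm

variable {G : Bg} {Cl : ℕ → Prop} {u u2 d ν : ℕ} {g : Gl}

theorem Bg.Closed.vol_pos {A C : Finset ℕ} (h : G.Closed Cl u u2 A C d) (n : u ≠ u2) :
    1 ≤ G.vol A := by
  have := one_lt_card.2 ⟨u, h.hu, u2, h.hu2, n⟩
  have := h.card
  have := G.card_le_vol A
  omega

/-- a minimal closed region -/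
structure Res (G : Bg) (Cl : ℕ → Prop) (u u2 : ℕ) (A C : List ℕ) (d : ℕ) : Prop where
  ndA : A.Nodup
  ndC : C.Nodup
  cl : G.Closed Cl u u2 A.toFinset C.toFinset d
  min : ∀ A' C' d', G.Closed Cl u u2 A' C' d' → A' ⊆ A.toFinset → A' = A.toFinset

/-- minimality in the form of neighbourhoods -/
theorem Res.min' {A C : List ℕ} (h : Res G Cl u u2 A C d) (hG : G.WF Cl) {B N : Finset ℕ}
    (hB : B ⊆ A.toFinset) (hN : ∀ c, c ∈ N ↔ ∃ a ∈ B, G.Nb a c) (hu : u ∈ N) (hu2 : u2 ∈ N)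
    (e : #N = #B + 1) : B = A.toFinset := by
  obtain ⟨d', k⟩ := Bg.Closed.of_card hG hu hu2
    (fun c i => let ⟨a, j, n⟩ := (hN c).1 i; h.cl.cl c (h.cl.nb a (hB j) c n))
    (fun a i c n => (hN c).2 ⟨a, i, n⟩) e
    fun a i => let ⟨c, j, _, e⟩ := h.cl.partner hG (hB i); ⟨c, h.cl.cl c j, e⟩
  exact h.min _ _ _ k hB

theorem foldl_base (P : ℕ → Prop) [DecidablePred P] (L : List ℕ) (i : ℕ)
    (h : ¬P i ∨ ∃ c ∈ L, ¬P c) :
    L.foldl (fun s c => if P c then s else c) i ∈ i :: L ∧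
      ¬P (L.foldl (fun s c => if P c then s else c) i) := by
  induction L generalizing i with
  | nil => simpa using h
  | cons x L ih =>
    rw [List.foldl_cons]
    by_cases e : P x
    · rw [if_pos e]
      obtain ⟨a, b⟩ := ih i (by simpa [e] using h)
      exact ⟨(List.mem_cons.1 a).elim (fun a => by simp [a]) fun a => by simp [a], b⟩
    · rw [if_neg e]
      obtain ⟨a, b⟩ := ih x (.inl e)
      exact ⟨List.mem_cons_of_mem _ a, b⟩

theorem sp_closeOut (hG : G.WF Cl) {L V : List ℕ} {ov : Arr ℕ} (h : Ov G Cl u L ov)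
    {par : Arr (ℕ × ℕ)} (v : Vis (flip G u ov) Cl u u2 V par)
    (hh : ∀ y ∈ V, (flip G u ov).has y = true)
    (st : ∀ y ∈ V, ∀ z, (flip G u ov).St y z → z = u ∨ z ∈ V) :
    Sp g (closeOut G (flip G u ov) u V) fun r t => (∃ A C d, r = some (A, C, d) ∧
      Res G Cl u u2 A C d ∧ G.vol A.toFinset = (flip G u ov).cvol V) ∧ t ≤ 4 * V.length + 5 := by
  have hG' := h.wf hG
  obtain ⟨nA, k'⟩ := Bg.closed_of_vis hG' v.nd v.cl (h.cl u h.mem) v.nu v.mem hh st
  obtain ⟨d, k⟩ := h.closed_old hG k'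
  refine (sp_mapP _ V).bind fun A t ⟨eA, a⟩ => (sp_setAllP _ A _).bind fun mk t' ⟨e, b⟩ =>
    (sp_foldP _ _ _).bind fun d' t'' ⟨e', c⟩ => ⟨⟨A, u :: V, d', rfl, ?_, ?_⟩, ?_⟩
  · have P : ∀ c, (G.has c = true ∧ mk.get (G.mt c) = true) ↔ ∃ a ∈ A.toFinset, G.mu c = some a :=
      fun c => by
        rw [e]
        refine ⟨fun ⟨i, j⟩ => ⟨_, by simpa using j, Bg.mu_mt i⟩, fun ⟨a, i, j⟩ =>
          ⟨Bg.has_iff.2 ⟨a, j⟩, by rw [Bg.mt_eq j]; simpa using i⟩⟩
    subst eA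
    obtain ⟨i, j⟩ := foldl_base (fun c => G.has c = true ∧ mk.get (G.mt c) = true) (u :: V) u
      (.inr ⟨d, List.mem_toFinset.1 k.hd, fun q => let ⟨_, i, j⟩ := (P d).1 q; k.base hG i j⟩)
    rw [← e'] at i j
    obtain rfl : d' = d := by
      by_contra n
      exact j ((P d').2 (k.mu d' (by simpa using i) n))
    refine ⟨nA, List.nodup_cons.2 ⟨v.nu, v.nd⟩, k, fun A' C' d'' q s => Subset.antisymm s ?_⟩
    obtain ⟨d3, q'⟩ := Bg.Closed.of_card hG' q.hu q.hu2 q.cl q.nb q.card fun a i =>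
      let ⟨c, j, _, e⟩ := k'.partner hG' (s i); ⟨c, k'.cl c j, e⟩
    obtain rfl : u = d3 := q'.root q.hu flip_u
    intro a i
    obtain ⟨y, j, rfl⟩ := List.mem_map.1 (List.mem_toFinset.1 i)
    obtain ⟨a, i', e⟩ := q'.mu y (v.sub_closed q' y j).1 (v.sub_closed q' y j).2
    rwa [Bg.mt_eq e]
  · rw [eA, Bg.cvol_eq hG' v.nd fun c i => ⟨v.cl c i, hh c i⟩, flip_vol]
  · simp only [eA, List.length_map, List.length_cons] at a b c
    omega

/-- **one test**: a minimal closed region, or every closed region is large -/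
theorem sp_test (hG : G.WF Cl) (hS : G.Surplus Cl) (hu : Cl u) (h2 : Cl u2) (n : u ≠ u2)
    (hX : 2 * ν ≤ g.X) :
    Sp g (test G u u2 ν) fun r t => (∀ A C d, r = some (A, C, d) → Res G Cl u u2 A C d ∧
      G.vol A.toFinset ≤ ν + 1) ∧
      (r = none → ∀ A C d, G.Closed Cl u u2 A C d → ν < G.vol A) ∧ t ≤ 11 * ν + 22 := by
  refine sp_bind.2 (sp_nat.2 ⟨hX, ?_⟩)
  refine (sp_dfs hG hu rfl).bind fun x t1 ⟨h, a1, b1, c1⟩ => ?_
  refine (sp_pops (u2 := u2) hG hS h a1 c1).bind fun st t2 ⟨ex, a2, b2⟩ => ?_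
  refine (sp_ovl ex.nd).bind fun ov t3 ⟨a3, b3⟩ => ?_
  have o : Ov G Cl u (st.map Prod.fst) ov := ⟨ex.nd, ex.cl, ex.ch, ex.last, a3⟩
  have hG' := o.wf hG
  refine (sp_dfs hG' h2 (Arr.get_set_ne _ n.symm _)).bind fun x' t4 ⟨h', a4, b4, c4⟩ => ?_
  obtain ⟨U, -, -, i, j⟩ := h'.stk.all
  split
  · rename_i e
    obtain ⟨k1, k2⟩ := h'.closed e
    have := h'.len
    have := j e
    refine (sp_closeOut hG o h'.vis' k1 k2).mono ?_
    rintro _ t5 ⟨⟨A, C, d, rfl, a5, c5⟩, b5⟩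
    refine ⟨fun _ _ _ e => ?_, fun e => (by cases e), by omega⟩
    cases e
    exact ⟨a5, by omega⟩
  · rename_i f st' e
    refine ⟨fun _ _ _ e => (by cases e), fun _ A C d k => ?_, by omega⟩
    by_contra! le
    have k' := o.closed_new hG k (ex.out A C d k le)
    have m := h'.vis'.sub_closed k'
    have := k'.cvol hG' h'.nd m
    have fV : f.1 ∈ x'.2.1 := h'.stk.sublist.subset (by simp [e])
    obtain ⟨a, -, q⟩ := k'.mu _ (m _ fV).1 (m _ fV).2
    have := c4 f st' e (Bg.has_iff.2 ⟨a, q⟩)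
    rw [flip_vol] at *
    omega

theorem sp_dom_aux (hG : G.WF Cl) (hS : G.Surplus Cl) (hu : Cl u) (h2 : Cl u2) (n : u ≠ u2)
    {k : ℕ} (hX : ν * 2 ^ k ≤ g.X) (h1 : 1 ≤ ν)
    (hb : ∀ A C d, G.Closed Cl u u2 A C d → ν < 2 * G.vol A) :
    Sp g (whileF noRes (fun s => test G u u2 s.1 >>= fun o => nat (2 * s.1) >>= fun ν =>
      pure (ν, o)) k (ν, none)) fun s t => (∀ A C d, s.2 = some (A, C, d) →
        Res G Cl u u2 A C d ∧ t + 34 * ν ≤ 136 * G.vol A.toFinset + 1 ∧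
          2 * G.vol A.toFinset ≤ ν * 2 ^ k + 2) ∧
      (s.2 = none → ∀ A C d, G.Closed Cl u u2 A C d → ν * 2 ^ k < 2 * G.vol A) ∧
        t + 34 * ν ≤ 34 * (ν * 2 ^ k) + 1 := by
  induction k generalizing ν with
  | zero =>
    exact ⟨Nat.zero_le _, fun _ _ _ e => (by cases e), fun _ => by simpa using hb, by simp; omega⟩
  | succ k ih =>
    have e : ν * 2 ^ (k + 1) = 2 * ν * 2 ^ k := by ring
    have l : 2 * ν ≤ 2 * ν * 2 ^ k := Nat.le_mul_of_pos_right _ (by positivity)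
    refine ⟨Nat.zero_le _, ?_⟩
    rw [e] at hX ⊢
    rw [if_pos (by rfl)]
    refine sp_bind.2 ((sp_test hG hS hu h2 n (l.trans hX)).bind fun o t ⟨a, b, c⟩ => ?_)
    refine sp_bind.2 (sp_nat.2 ⟨l.trans hX, ?_⟩)
    rw [sp_pure]
    dsimp only at a b c ⊢
    cases o with
    | none =>
      refine (ih hX (by omega) fun A C d q => by have := b rfl A C d q; omega).mono ?_
      rintro s t' ⟨i, j, q⟩
      refine ⟨fun A C d e => ?_, j, by omega⟩
      obtain ⟨i1, i2, i3⟩ := i A C d e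
      exact ⟨i1, by omega, i3⟩
    | some r =>
      obtain ⟨A, C, d⟩ := r
      obtain ⟨a1, a2⟩ := a A C d rfl
      have := hb _ _ _ a1.cl
      have z : ∀ (f : ℕ × Option (List ℕ × List ℕ × ℕ) → R (ℕ × Option (List ℕ × List ℕ × ℕ)))
          (k : ℕ), Sp g (whileF noRes f k (2 * ν, some (A, C, d)))
          fun s t => s.2 = some (A, C, d) ∧ t = 1 := fun f k => by
        cases k <;> exact ⟨Nat.zero_le _, rfl, rfl⟩
      refine (z _ k).mono ?_
      rintro s _ ⟨i, rfl⟩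
      rw [i]
      refine ⟨fun _ _ _ e => ?_, fun e => (by cases e), by omega⟩
      cases e
      exact ⟨a1, by omega, by omega⟩

/-- **the doubling search**: a minimal closed region in time linear in its volume, or every closed
region has a volume above `2^(k-1)` -/
theorem sp_dom (hG : G.WF Cl) (hS : G.Surplus Cl) (hu : Cl u) (h2 : Cl u2) (n : u ≠ u2) {k : ℕ}
    (hX : 2 ^ k ≤ g.X) :
    Sp g (dom G u u2 k) fun r t => (∀ A C d, r = some (A, C, d) → Res G Cl u u2 A C d ∧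
        t ≤ 136 * G.vol A.toFinset ∧ 2 * G.vol A.toFinset ≤ 2 ^ k + 2) ∧
      (r = none → ∀ A C d, G.Closed Cl u u2 A C d → 2 ^ k < 2 * G.vol A) ∧ t ≤ 34 * 2 ^ k :=
  (sp_dom_aux (ν := 1) hG hS hu h2 n (by simpa using hX) le_rfl
    fun A C d q => by have := q.vol_pos n; omega).bind fun s t ⟨a, b, c⟩ =>
      ⟨fun A C d e => let ⟨i, j, q⟩ := a A C d e; ⟨i, by omega, by omega⟩,
        fun e A C d q => by simpa using b e A C d q, by omega⟩

/-- if every closed region is large, then the search under flipped mates does not close early -/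
theorem Ov.big {L V : List ℕ} {ov : Arr ℕ} (h : Ov G Cl u L ov) (hG : G.WF Cl)
    {par : Arr (ℕ × ℕ)} (v : Vis (flip G u ov) Cl u u2 V par)
    (hh : ∀ y ∈ V, (flip G u ov).has y = true)
    (st : ∀ y ∈ V, ∀ z, (flip G u ov).St y z → z = u ∨ z ∈ V) :
    ∃ A C d, G.Closed Cl u u2 A C d ∧ G.vol A = (flip G u ov).cvol V := by
  obtain ⟨-, k'⟩ := Bg.closed_of_vis (h.wf hG) v.nd v.cl (h.cl u h.mem) v.nu v.mem hh st
  obtain ⟨d, k⟩ := h.closed_old hG k'
  exact ⟨_, _, d, k, by rw [Bg.cvol_eq (h.wf hG) v.nd fun c i => ⟨v.cl c i, hh c i⟩, flip_vol]⟩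

end Crest.Agent.N325.Dm
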